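import Vale.Agent.P235.LL.Rows
import Vale.Agent.P235.H958.LipExt
import Mathlib.Analysis.Normed.Lp.PiLp

/-! P235, LL, row EXTEND: extension of an `L₁` semimetric from the visible set, one component at a
time, by the Lipschitz extension theorem for finite subsets of `ℝ^d` with values in a normed space. -/

namespace Vale.Agent.P235.LL.H101

open Vale.Agent.P235 Finset

/-- the vector of an `L₁` representation -/
private noncomputable def vec {V ι : Type} (w : ι → ℝ) (c : ι → V → Bool) (x : V) :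
    PiLp 1 (fun _ : ι => ℝ) := WithLp.toLp 1 fun i => if c i x = true then w i else 0

private theorem vec_sub {V ι : Type} [Fintype ι] (w : ι → ℝ) (hw : ∀ i, 0 ≤ w i) (c : ι → V → Bool)
    (x y : V) : ‖vec w c x - vec w c y‖ = ∑ i, w i * (if c i x = c i y then 0 else 1) := by
  rw [PiLp.norm_eq_of_L1]
  refine Finset.sum_congr rfl fun i _ => ?_
  have : (vec w c x - vec w c y) i = (if c i x = true then w i else 0) -
      (if c i y = true then w i else 0) := rfl
  rw [this, Real.norm_eq_abs]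
  cases hx : c i x <;> cases hy : c i y <;> simp [abs_of_nonneg (hw i)]

private theorem isL1_norm {V ι : Type} [Finite V] [Fintype ι] (F : V → PiLp 1 (fun _ : ι => ℝ)) :
    IsL1 (fun x y => ‖F x - F y‖) := by
  have h := IsL1.sum (Finset.univ : Finset ι) (fun i x y => |F x i - F y i|)
    (fun i _ => isL1_line (fun x => F x i))
  refine h.congr fun x y => ?_
  rw [PiLp.norm_eq_of_L1]
  rfl

theorem extend : RowExtend := by
  intro κ _
  classical
  obtain ⟨K, hK1, hK⟩ := H958.lipExt (Fintype.card κ)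
  set d := Fintype.card κ with hd
  have hd0 : (0 : ℝ) ≤ d := Nat.cast_nonneg _
  refine ⟨K * (d + 1), by nlinarith, ?_⟩
  intro V _ φ hφ Vis ι q E Y L hL hfin hvis hlip
  obtain ⟨I, _, w, c, hw, hφ'⟩ := hφ
  set e : κ ≃ Fin d := Fintype.equivFin κ with he
  -- coordinates
  let cr : (κ → ℝ) → (Fin d → ℝ) := fun z t => z (e.symm t)
  have hcr : Function.Injective cr := by
    intro z z' h
    funext t
    have := congrFun h (e t)
    simpa [cr] using this
  have hsum : ∀ z z' : κ → ℝ, ∑ t, |z t - z' t| = ∑ t, |cr z t - cr z' t| := fun z z' =>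
    (Equiv.sum_comp e.symm (fun t => |z t - z' t|)).symm
  have hup : ∀ z z' : κ → ℝ, ∑ t, |z t - z' t| ≤ (d + 1) * dist (cr z) (cr z') := by
    intro z z'
    rw [hsum]
    calc ∑ t, |cr z t - cr z' t| ≤ ∑ _t : Fin d, dist (cr z) (cr z') :=
          Finset.sum_le_sum fun t _ => by
            rw [← Real.dist_eq]; exact dist_le_pi_dist _ _ t
      _ = d * dist (cr z) (cr z') := by simp
      _ ≤ (d + 1) * dist (cr z) (cr z') := by
          have := @dist_nonneg _ _ (cr z) (cr z')
          nlinarith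
  have hdn : ∀ z z' : κ → ℝ, dist (cr z) (cr z') ≤ ∑ t, |z t - z' t| := by
    intro z z'
    rw [hsum]
    refine (dist_pi_le_iff (Finset.sum_nonneg fun _ _ => abs_nonneg _)).2 fun t => ?_
    rw [Real.dist_eq]
    exact Finset.single_le_sum (f := fun t => |cr z t - cr z' t|) (fun _ _ => abs_nonneg _)
      (Finset.mem_univ t)
  -- one component
  have hg : ∀ i, ∃ g : (Fin d → ℝ) → PiLp 1 (fun _ : I => ℝ),
      (∀ a ∈ E i, g (cr a.2) = vec w c a.1) ∧
      ∀ z z', ‖g z - g z'‖ ≤ K * (L * (d + 1)) * dist z z' := by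
    intro i
    set S : Set (Fin d → ℝ) := (fun a : V × (κ → ℝ) => cr a.2) '' E i with hS
    have hex : ∀ s ∈ S, ∃ a ∈ E i, cr a.2 = s := fun s hs => hs
    let f : (Fin d → ℝ) → PiLp 1 (fun _ : I => ℝ) := fun s =>
      if h : ∃ a ∈ E i, cr a.2 = s then vec w c h.choose.1 else 0
    have key : ∀ a ∈ E i, ∀ b ∈ E i, ‖vec w c a.1 - vec w c b.1‖ ≤
        L * (d + 1) * dist (cr a.2) (cr b.2) := by
      intro a ha b hb
      rw [vec_sub w hw c, ← hφ', mul_assoc]
      exact (hlip i a ha b hb).trans (mul_le_mul_of_nonneg_left (hup _ _) hL)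
    have hf : ∀ a ∈ E i, f (cr a.2) = vec w c a.1 := by
      intro a ha
      have h : ∃ b ∈ E i, cr b.2 = cr a.2 := ⟨a, ha, rfl⟩
      have h1 : f (cr a.2) = vec w c h.choose.1 := dif_pos h
      rw [h1]
      obtain ⟨h2, h3⟩ := h.choose_spec
      have h4 := key _ h2 _ ha
      rw [h3, dist_self, mul_zero] at h4
      exact sub_eq_zero.1 (norm_le_zero_iff.1 h4)
    obtain ⟨g, hg1, hg2⟩ := hK (PiLp 1 (fun _ : I => ℝ)) S ((hfin i).image _) f (L * (d + 1))
      (by positivity) (by
        rintro _ ⟨a, ha, rfl⟩ _ ⟨b, hb, rfl⟩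
        rw [hf a ha, hf b hb]
        exact key a ha b hb)
    exact ⟨g, fun a ha => (hg1 _ ⟨a, ha, rfl⟩).trans (hf a ha), hg2⟩
  choose g hg1 hg2 using hg
  -- the extension
  let F : V → PiLp 1 (fun _ : I => ℝ) := fun x => if x ∈ Vis then vec w c x else g (q x) (cr (Y x))
  have hin : ∀ x ∈ Vis, F x = vec w c x := fun x hx => if_pos hx
  have hout : ∀ x ∉ Vis, F x = g (q x) (cr (Y x)) := fun x hx => if_neg hx
  have hfinal : ∀ i z z', ‖g i (cr z) - g i (cr z')‖ ≤ K * (d + 1) * L * ∑ t, |z t - z' t| := by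
    intro i z z'
    refine (hg2 i _ _).trans ?_
    have h1 : K * (L * (d + 1)) = K * (d + 1) * L := by ring
    rw [h1]
    exact mul_le_mul_of_nonneg_left (hdn _ _) (by positivity)
  refine ⟨fun x y => ‖F x - F y‖, isL1_norm F, ?_, ?_, ?_⟩
  · intro a ha b hb
    show ‖F a - F b‖ = _
    rw [hin a ha, hin b hb, vec_sub w hw c, ← hφ']
  · intro x hx y hy hxy
    show ‖F x - F y‖ ≤ _
    rw [hout x hx, hout y hy, ← hxy]
    exact hfinal _ _ _
  · intro x hx a ha
    show ‖F x - F a.1‖ ≤ _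
    rw [hout x hx, hin a.1 (hvis _ a ha), ← hg1 _ a ha]
    exact hfinal _ _ _

end Vale.Agent.P235.LL.H101
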