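import Vale.Agent.P235.LL.Basic
import Vale.Agent.P235.H101.Extend

/-! P235, LL, row STEP: the step maps of a system of domains, extended to all vertices. -/

namespace Vale.Agent.P235.LL.H101

open Vale.Agent.P235 Finset

/-- An `L₁` semimetric on the visible set which is `≤ pathDist` there extends to all vertices with
the slopes of the children. -/
theorem ext_map (Ce : ℝ) (hCe : 1 ≤ Ce)
    (hext : ∀ (V : Type) [Finite V] (φ : V → V → ℝ), IsL1 φ → ∀ (Vis : Set V) (ι : Type)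
      (q : V → ι) (E : ι → Set (V × (Fin 3 × Bool → ℝ))) (Y : V → Fin 3 × Bool → ℝ) (L : ℝ),
      0 ≤ L → (∀ i, (E i).Finite) → (∀ i, ∀ e ∈ E i, e.1 ∈ Vis) →
      (∀ i, ∀ e ∈ E i, ∀ e' ∈ E i, φ e.1 e'.1 ≤ L * ∑ t, |e.2 t - e'.2 t|) →
      ∃ φ' : V → V → ℝ, IsL1 φ' ∧ (∀ a ∈ Vis, ∀ b ∈ Vis, φ' a b = φ a b) ∧
        (∀ x ∉ Vis, ∀ y ∉ Vis, q x = q y → φ' x y ≤ Ce * L * ∑ t, |Y x t - Y y t|) ∧
        (∀ x ∉ Vis, ∀ e ∈ E (q x), φ' x e.1 ≤ Ce * L * ∑ t, |Y x t - e.2 t|))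
    {V : Type} [Finite V] {G : SimpleGraph V} {ℓ : Sym2 V → ℝ} {K : ℝ}
    (S : Sys G ℓ K) {D : Dom V} (hD : S.Good D)
    (k : Fin 3 × Bool) (j : ℕ) {B : ℝ} (hB : 0 ≤ B) {ψ : V → V → ℝ} (hψ : IsL1 ψ)
    (hle : ∀ a ∈ D.vis k (j + 1), ∀ b ∈ D.vis k (j + 1), ψ a b ≤ B * pathDist G ℓ a b) :
    ∃ st : V → V → ℝ, IsL1 st ∧
      (∀ a ∈ D.vis k (j + 1), ∀ b ∈ D.vis k (j + 1), st a b = ψ a b) ∧
      (∀ x y, G.Adj x y → x ∉ D.vis k (j + 1) →
        st x y ≤ Ce * (2 * B) * (∑ i, (S.ch D k j x).sl i x y) * ℓ s(x, y)) ∧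
      ∀ x ∉ D.vis k (j + 1), ∀ v b, (S.ch D k j x).Dart G v b →
        st x b ≤ Ce * (2 * B) * ∑ i, |(S.ch D k j x).c i x - (S.ch D k j x).X ℓ i v b| := by
  classical
  set Vis := D.vis k (j + 1) with hVis
  -- the darts of the components
  let q : V → Set V := fun x => compSet G Vis x
  let E : Set V → Set (V × (Fin 3 × Bool → ℝ)) := fun W =>
    {e | ∃ x, x ∉ Vis ∧ compSet G Vis x = W ∧ ∃ v, (S.chS D k j W).Dart G v e.1 ∧
      e.2 = fun i => (S.chS D k j W).X ℓ i v e.1}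
  let Y : V → Fin 3 × Bool → ℝ := fun x i => (S.ch D k j x).c i x
  have hEfin : ∀ W, (E W).Finite := by
    intro W
    refine (Set.finite_range (fun p : V × V => ((p.2, fun i => (S.chS D k j W).X ℓ i p.1 p.2) :
      V × (Fin 3 × Bool → ℝ)))).subset ?_
    rintro ⟨b, z⟩ ⟨x, hx, hxW, v, hd, hz⟩
    exact ⟨(v, b), by simp only at hz ⊢; rw [hz]⟩
  have hEvis : ∀ W, ∀ e ∈ E W, e.1 ∈ Vis := by
    rintro W ⟨b, z⟩ ⟨x, hx, rfl, v, hd, hz⟩
    exact Sys.ch_dart hD hx hd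
  have hElip : ∀ W, ∀ e ∈ E W, ∀ e' ∈ E W, ψ e.1 e'.1 ≤ 2 * B * ∑ t, |e.2 t - e'.2 t| := by
    rintro W ⟨b, z⟩ he ⟨b', z'⟩ he'
    have h1 := hEvis W _ he
    have h2 := hEvis W _ he'
    obtain ⟨x, hx, rfl, v, hd, hz⟩ := he
    obtain ⟨x', hx', hxx, v', hd', hz'⟩ := he'
    simp only at hz hz' h1 h2 hd hd' ⊢
    subst hz hz'
    refine (hle b h1 b' h2).trans ?_
    have h3 := (S.dom _ (Sys.ch_good hD hx)).ctrl v b v' b' hd hd'
    calc B * pathDist G ℓ b b' ≤ B * _ := mul_le_mul_of_nonneg_left h3 hB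
      _ = _ := by ring_nf; rfl
  obtain ⟨st, h1, h2, h3, h4⟩ := hext V ψ hψ Vis (Set V) q E Y (2 * B) (by positivity) hEfin hEvis
    hElip
  have hdart : ∀ x ∉ Vis, ∀ v b, (S.ch D k j x).Dart G v b →
      st x b ≤ Ce * (2 * B) * ∑ i, |(S.ch D k j x).c i x - (S.ch D k j x).X ℓ i v b| := by
    intro x hx v b hd
    exact h4 x hx (b, fun i => (S.ch D k j x).X ℓ i v b) ⟨x, hx, rfl, v, hd, rfl⟩
  refine ⟨st, h1, h2, fun x y hxy hx => ?_, hdart⟩
  have hpos : 0 ≤ Ce * (2 * B) := by positivity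
  have hdom := S.dom _ (Sys.ch_good hD hx)
  have hxU := Sys.ch_mem hD hx
  rw [mul_assoc (Ce * (2 * B)), Finset.sum_mul]
  by_cases hy : y ∈ Vis
  · have hyU : y ∉ (S.ch D k j x).U := by
      rw [Sys.ch_U hD hx]
      exact fun h => compSet_sub h hy
    refine (hdart x hx x y ⟨hxU, hyU, hxy⟩).trans (mul_le_mul_of_nonneg_left ?_ hpos)
    exact Finset.sum_le_sum fun i _ => hdom.dart_sl i hxU hyU hxy
  · have hyc : y ∈ compSet G Vis x := compSet_adj (compSet_self hx) hxy hy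
    have hyU : y ∈ (S.ch D k j x).U := by rw [Sys.ch_U hD hx]; exact hyc
    have hch : S.ch D k j y = S.ch D k j x := Sys.ch_congr hyc
    refine (h3 x hx y hy (compSet_eq hyc).symm).trans (mul_le_mul_of_nonneg_left ?_ hpos)
    refine Finset.sum_le_sum fun i _ => ?_
    show |(S.ch D k j x).c i x - (S.ch D k j y).c i y| ≤ _
    rw [hch]
    exact hdom.edge_sl i hxU hyU hxy

theorem step : RowStep := by
  obtain ⟨Ce, hCe, hext⟩ := extend (Fin 3 × Bool)
  refine ⟨12 * Ce, by linarith, ?_⟩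
  intro V _ G ℓ K hc hℓ hK S D hD k j
  have hm := pathDist_isMet hc hℓ
  have hdom := S.dom D hD
  obtain ⟨ψ, hψ, hψ0, hψ1, hψ2⟩ := S.step D hD k j
  obtain ⟨st, h1, h2, h3, -⟩ := ext_map Ce hCe hext S hD k j (B := 1) zero_le_one hψ
    (fun a ha b hb => by rw [one_mul]; exact hψ1 a ha b hb)
  have hsub : D.vis k j ⊆ D.vis k (j + 1) := hdom.vis_mono (Nat.le_succ j)
  have hlpos : ∀ x y, G.Adj x y → 0 < ℓ s(x, y) := fun x y h => hℓ _ (G.mem_edgeSet.mpr h)
  -- slopes sum to at most 6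
  have hsum : ∀ x ∉ D.vis k (j + 1), ∀ y, (0 : ℝ) ≤ ∑ i, (S.ch D k j x).sl i x y ∧
      ∑ i, (S.ch D k j x).sl i x y ≤ 6 := by
    intro x hx y
    have hd := S.dom _ (Sys.ch_good hD hx)
    refine ⟨Finset.sum_nonneg fun i _ => hd.sl_nonneg i x y, ?_⟩
    calc ∑ i, (S.ch D k j x).sl i x y ≤ ∑ _i : Fin 3 × Bool, (1 : ℝ) :=
          Finset.sum_le_sum fun i _ => hd.sl_le_one i x y
      _ = 6 := by simp
  have halive : ∀ x y, G.Adj x y → x ∉ D.vis k (j + 1) → st x y ≤ 12 * Ce * ℓ s(x, y) := by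
    intro x y hxy hx
    refine (h3 x y hxy hx).trans ?_
    have h4 := (hsum x hx y).2
    have h5 := (hlpos x y hxy).le
    calc Ce * (2 * 1) * (∑ i, (S.ch D k j x).sl i x y) * ℓ s(x, y)
        ≤ Ce * (2 * 1) * 6 * ℓ s(x, y) :=
          mul_le_mul_of_nonneg_right (mul_le_mul_of_nonneg_left h4 (by positivity)) h5
      _ = 12 * Ce * ℓ s(x, y) := by ring
  have hedge : ∀ x y, G.Adj x y → st x y ≤ 12 * Ce * ℓ s(x, y) := by
    intro x y hxy
    by_cases hx : x ∈ D.vis k (j + 1)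
    · by_cases hy : y ∈ D.vis k (j + 1)
      · rw [h2 x hx y hy]
        have h5 := pathDist_adj hℓ hxy
        have h6 := hψ1 x hx y hy
        have h7 := (hlpos x y hxy).le
        nlinarith
      · have h8 := halive y x hxy.symm hy
        rw [h1.symm y x, Sym2.eq_swap] at h8
        exact h8
    · exact halive x y hxy hx
  have hlip : ∀ x y, st x y ≤ 12 * Ce * pathDist G ℓ x y :=
    pathDist_semi hc (by positivity) h1.self h1.tri hedge
  refine ⟨st, h1, ?_, ?_, ?_, ?_⟩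
  · intro a ha b hb
    rw [h2 a (hsub ha) b (hsub hb)]
    exact hψ0 a ha b hb
  · intro a ha b hb
    rw [h2 a ha b hb]
    exact hψ1 a ha b hb
  · intro x y hxy hx
    refine (h3 x y hxy hx).trans ?_
    have h4 := (hsum x hx y).1
    have h5 := (hlpos x y hxy).le
    have h6 := mul_nonneg h4 h5
    nlinarith
  · intro x y
    have hne := hdom.vis_nonempty k (j + 1)
    obtain ⟨a, ha, hax⟩ := exists_dto (G := G) (ℓ := ℓ) hne x
    obtain ⟨b, hb, hby⟩ := exists_dto (G := G) (ℓ := ℓ) hne y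
    rw [hax, hby]
    have e1 := hψ2 a ha b hb
    rw [← h2 a ha b hb] at e1
    have e2 := hm.tri x a y
    have e3 := hm.tri a b y
    have e4 := hm.symm b y
    have e5 := dto_tri hc hℓ (D.vis k j) x a
    have e6 := dto_tri hc hℓ (D.vis k j) y b
    have e7 := h1.tri a x b
    have e8 := h1.tri x y b
    have e9 := h1.symm a x
    have e10 := hlip x a
    have e11 := hlip y b
    have hKst : K * st a b ≤ K * (st x y + 12 * Ce * pathDist G ℓ x a +
        12 * Ce * pathDist G ℓ y b) := mul_le_mul_of_nonneg_left (by linarith) (by linarith)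
    have e12 : min (pathDist G ℓ x y) (dto G ℓ (D.vis k j) x + dto G ℓ (D.vis k j) y) ≤
        pathDist G ℓ x a + pathDist G ℓ y b +
          min (pathDist G ℓ a b) (dto G ℓ (D.vis k j) a + dto G ℓ (D.vis k j) b) := by
      rcases le_total (pathDist G ℓ a b) (dto G ℓ (D.vis k j) a + dto G ℓ (D.vis k j) b) with h | h
      · rw [min_eq_left h]
        refine (min_le_left _ _).trans ?_
        linarith
      · rw [min_eq_right h]
        refine (min_le_right _ _).trans ?_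
        linarith
    nlinarith [e1, hKst, e12]

end Vale.Agent.P235.LL.H101
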